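import Vale.Agent.P195.MathlibUsed

open Function

namespace Vale.Agent.P195

universe u v w

/-- An indecomposable module. -/
def IsIndec (R : Type u) [Ring R] (X : Type v) [AddCommGroup X] [Module R X] : Prop :=
  Nontrivial X ∧ ∀ A B : Submodule R X, IsCompl A B → A = ⊥ ∨ B = ⊥

/-- `X` is (isomorphic to) a direct summand of `V ^ n` for some `n`, i.e. `X` is in `add V`. -/
def InAdd (R : Type u) [Ring R] (V : Type v) [AddCommGroup V] [Module R V]
    (X : Type w) [AddCommGroup X] [Module R X] : Prop :=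
  ∃ (n : ℕ) (i : X →ₗ[R] (Fin n → V)) (p : (Fin n → V) →ₗ[R] X), p ∘ₗ i = LinearMap.id

/-- The ring `A` has at most `r` isomorphism classes of finitely generated indecomposable
(left) modules. -/
def AtMostIndec (A : Type u) [Ring A] (r : ℕ) : Prop :=
  ∃ W : Fin r → ModuleCat.{u} A, (∀ j, Module.Finite A (W j)) ∧
    ∀ (X : Type u) [AddCommGroup X] [Module A X] [Module.Finite A X],
      IsIndec A X → ∃ j, Nonempty (X ≃ₗ[A] W j)

/-- `0 → A → B → C → 0` is a short exact sequence. -/
def IsSES {R : Type u} [Ring R] {A B C : ModuleCat.{u} R} (f : A →ₗ[R] B) (g : B →ₗ[R] C) :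
    Prop :=
  Injective f ∧ Exact f g ∧ Surjective g

/-- `Y` is an `n`-th syzygy of `X`: there is an exact sequence
`0 → Y → P (n-1) → … → P 0 → X → 0` with all `P i` finitely generated projective. -/
def IsSyzygy {R : Type u} [Ring R] : ℕ → ModuleCat.{u} R → ModuleCat.{u} R → Prop
  | 0, X, Y => Nonempty (Y ≃ₗ[R] X)
  | n + 1, X, Y => ∃ (Z P : ModuleCat.{u} R) (f : Z →ₗ[R] P) (g : P →ₗ[R] X),
      Module.Finite R P ∧ Module.Projective R P ∧ IsSES f g ∧ IsSyzygy n Z Y

/-- `R` is an `n`-Igusa–Todorov algebra (Wei): there is a finitely generated module `V` such that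
for every finitely generated `X` there is an exact sequence `0 → V₁ → V₀ → Y ⊕ Q → 0` with
`V₁, V₀` in `add V`, `Y` an `n`-th syzygy of `X` and `Q` finitely generated projective. -/
def IsIgusaTodorov (R : Type u) [Ring R] (n : ℕ) : Prop :=
  ∃ V : ModuleCat.{u} R, Module.Finite R V ∧
    ∀ X : ModuleCat.{u} R, Module.Finite R X →
      ∃ (Y Q V₁ V₀ : ModuleCat.{u} R) (f : V₁ →ₗ[R] V₀) (g : V₀ →ₗ[R] ModuleCat.of R (Y × Q)),
        IsSyzygy n X Y ∧ Module.Finite R Q ∧ Module.Projective R Q ∧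
        InAdd R V V₁ ∧ InAdd R V V₀ ∧ IsSES f g

end Vale.Agent.P195
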