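import Mathlib.Algebra.AffineMonoid.UniqueSums
import Mathlib.Algebra.Category.ModuleCat.Ext.HasExt
import Mathlib.Algebra.Homology.DerivedCategory.Ext.Linear
import Mathlib.Algebra.Homology.ShortComplex.ModuleCat
import Mathlib.Algebra.Module.StablyFree.Basic
import Mathlib.Algebra.Module.Torsion.Prod
import Mathlib.Algebra.MvPolynomial.Comap
import Mathlib.Algebra.MvPolynomial.Funext
import Mathlib.Algebra.Order.Ring.Star
import Mathlib.Algebra.Ring.BooleanRing
import Mathlib.CategoryTheory.Sums.Basic
import Mathlib.Combinatorics.Quiver.ReflQuiver
import Mathlib.Computability.Reduce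
import Mathlib.Data.Finsupp.Interval
import Mathlib.Data.Int.Star
import Mathlib.LinearAlgebra.Matrix.FiniteDimensional
import Mathlib.Order.CompletePartialOrder
import Mathlib.RingTheory.Derivation.Lie
import Mathlib.RingTheory.Etale.Weakly
import Mathlib.RingTheory.Flat.TorsionFree
import Mathlib.RingTheory.Henselian
import Mathlib.RingTheory.MvPolynomial.EulerIdentity
import Mathlib.RingTheory.MvPolynomial.IrreducibleQuadratic
import Mathlib.RingTheory.RegularLocalRing.Defs
import Mathlib.RingTheory.SimpleRing.Principal
import Mathlib.RingTheory.TotallySplit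
import Mathlib.Tactic

/-! The part of Mathlib that the development of this folder uses. -/
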